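import Mathlib.MeasureTheory.Measure.Hausdorff
import Mathlib.MeasureTheory.Measure.Decomposition.RadonNikodym
import Mathlib.Analysis.SpecialFunctions.Pow.NNReal
import Mathlib.Analysis.SpecialFunctions.Trigonometric.Basic
import Mathlib.Analysis.SpecialFunctions.Trigonometric.DerivHyp
import Mathlib.Analysis.InnerProductSpace.l2Space

open MeasureTheory Set Metric
open scoped ENNReal

universe u

namespace Vale.Agent.P242

section

variable {X : Type u} [MetricSpace X] [MeasurableSpace X]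

/-- `q` is a coupling of `μ` and `ν`. -/
def IsCoupling (μ ν : Measure X) (q : Measure (X × X)) : Prop :=
  q.map Prod.fst = μ ∧ q.map Prod.snd = ν

/-- Quadratic transport cost of a plan `q`. -/
noncomputable def transportCost (q : Measure (X × X)) : ℝ≥0∞ :=
  ∫⁻ z, ENNReal.ofReal (dist z.1 z.2 ^ 2) ∂q

/-- The square of the `L²`-Wasserstein distance. -/
noncomputable def W2sq (μ ν : Measure X) : ℝ≥0∞ :=
  ⨅ (q : Measure (X × X)) (_ : IsCoupling μ ν q), transportCost q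

/-- `q` is an optimal coupling of `μ` and `ν`. -/
def IsOptimalCoupling (μ ν : Measure X) (q : Measure (X × X)) : Prop :=
  IsCoupling μ ν q ∧ transportCost q = W2sq μ ν

/-- `μ ∈ P₂(X, d, m)`: a probability measure with finite second moment which is absolutely
continuous with respect to `m`. -/
def IsP2 (m μ : Measure X) : Prop :=
  IsProbabilityMeasure μ ∧ μ ≪ m ∧ ∀ o : X, ∫⁻ x, ENNReal.ofReal (dist o x ^ 2) ∂μ < ∞

/-- `(Γ t)`, `t ∈ [0,1]`, is a constant speed geodesic for the `L²`-Wasserstein distance. -/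
def IsW2Geodesic (Γ : ℝ → Measure X) : Prop :=
  ∀ s ∈ Icc (0 : ℝ) 1, ∀ t ∈ Icc (0 : ℝ) 1,
    W2sq (Γ s) (Γ t) = ENNReal.ofReal ((s - t) ^ 2) * W2sq (Γ 0) (Γ 1)

end

/-- The distortion coefficient `σ_{K,N}^{(t)}(θ)`. -/
noncomputable def sigmaCoeff (K N t θ : ℝ) : ℝ≥0∞ :=
  if N * Real.pi ^ 2 ≤ K * θ ^ 2 then ∞
  else if 0 < K * θ ^ 2 then
    ENNReal.ofReal (Real.sin (t * (θ * √(K / N))) / Real.sin (θ * √(K / N)))
  else if K * θ ^ 2 = 0 then ENNReal.ofReal t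
  else ENNReal.ofReal (Real.sinh (t * (θ * √(-K / N))) / Real.sinh (θ * √(-K / N)))

/-- The distortion coefficient `τ_{K,N}^{(t)}(θ) = t^{1/N} σ_{K,N-1}^{(t)}(θ)^{(N-1)/N}`. -/
noncomputable def tauCoeff (K N t θ : ℝ) : ℝ≥0∞ :=
  ENNReal.ofReal t ^ (1 / N) * sigmaCoeff K (N - 1) t θ ^ ((N - 1) / N)

/-- The Lott-Sturm-Villani curvature-dimension condition `CD(K,N)` of the metric measure space
`(X, d, m)` (Sturm, On the geometry of metric measure spaces II, Definition 1.3): any two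
`μ₀, μ₁ ∈ P₂(X, d, m)` have an optimal coupling `q` and a `W₂`-geodesic `Γ` in `P₂(X, d, m)`
joining them such that for all `t ∈ [0,1]` and `N' ≥ N` the Renyi entropy
`S_{N'}(Γ t | m) = - ∫ ρ_t^{1-1/N'} dm` is at most
`- ∫ (τ^{(1-t)}_{K,N'}(d(x₀,x₁)) ρ₀(x₀)^{-1/N'} + τ^{(t)}_{K,N'}(d(x₀,x₁)) ρ₁(x₁)^{-1/N'}) dq`. -/
def IsCD {X : Type u} [MetricSpace X] [MeasurableSpace X] (K N : ℝ) (m : Measure X) : Prop :=
  ∀ μ₀ μ₁ : Measure X, IsP2 m μ₀ → IsP2 m μ₁ →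
    ∃ (q : Measure (X × X)) (Γ : ℝ → Measure X),
      IsOptimalCoupling μ₀ μ₁ q ∧ Γ 0 = μ₀ ∧ Γ 1 = μ₁ ∧ IsW2Geodesic Γ ∧
      (∀ t ∈ Icc (0 : ℝ) 1, IsP2 m (Γ t)) ∧
      ∀ t ∈ Icc (0 : ℝ) 1, ∀ N' : ℝ, N ≤ N' →
        ∫⁻ z, (tauCoeff K N' (1 - t) (dist z.1 z.2) * (μ₀.rnDeriv m z.1) ^ (-1 / N') +
          tauCoeff K N' t (dist z.1 z.2) * (μ₁.rnDeriv m z.2) ^ (-1 / N')) ∂q ≤
        ∫⁻ x, ((Γ t).rnDeriv m x) ^ (1 - 1 / N') ∂m

end Vale.Agent.P242
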